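import Vale.Agent.P297.H65.Z2.PlaneMap

/-!
The choice of the node for a line in a plane `y = const`.
-/

set_option linter.unusedSimpArgs false
set_option linter.unusedSectionVars false
set_option linter.unusedVariables false

namespace Vale.Agent.P297.H65

open Polynomial Finset Vale.Agent.P297.Z2 Vale.Agent.P297.H160.Z2Irr Vale.Agent.P297.Gen

section dat

variable {R : Type*} [CommRing R] (D : Dat R)

/-- the coefficient of `h ^ 3` -/
def c3 (l p0 p1 r0 r1 : R) : R :=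
  2 * (p1 ^ 2 + r1 ^ 2) * ((2 * (p0 + r0) * (p1 + r1) + D.a * p1 + D.c * r1 -
    l * (D.U * p1 + D.V * r1)) - 2 * (p0 * r1 + p1 * r0)) -
    8 * (p1 * r1) * (p0 * r1 + p1 * r0) + 4 * l * (p1 * r1) * (D.V * p1 + D.U * r1)

theorem Bq_line (l p0 p1 r0 r1 : R) : ∃ c2 c1 c0 : R, ∀ h : R,
    D.Bq l (p0 + p1 * h) (r0 + r1 * h) =
      (p1 ^ 2 - r1 ^ 2) ^ 2 * h ^ 4 + c3 D l p0 p1 r0 r1 * h ^ 3 + c2 * h ^ 2 + c1 * h + c0 := by
  obtain ⟨j0, hj0⟩ : ∃ j0, j0 = D.J0 p0 r0 - l * D.J1 p0 r0 := ⟨_, rfl⟩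
  obtain ⟨j1, hj1⟩ : ∃ j1, j1 = 2 * (p0 + r0) * (p1 + r1) + D.a * p1 + D.c * r1 -
    l * (D.U * p1 + D.V * r1) := ⟨_, rfl⟩
  obtain ⟨n0, hn0⟩ : ∃ n0, n0 = D.N p0 r0 := ⟨_, rfl⟩
  obtain ⟨n1, hn1⟩ : ∃ n1, n1 = p0 * r1 + p1 * r0 := ⟨_, rfl⟩
  refine ⟨(j1 - 2 * n1) ^ 2 + 2 * (p1 ^ 2 + r1 ^ 2) * (j0 - 2 * n0) - 4 * (n1 ^ 2 + 2 * n0 *
      (p1 * r1)) + 4 * l * (p1 * r1 * (D.E p0 + D.F r0) + n1 * (D.V * p1 + D.U * r1)) -
      4 * (l ^ 2 - l) * (D.V * p1 * (D.U * r1)),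
    2 * (j1 - 2 * n1) * (j0 - 2 * n0) - 8 * n0 * n1 + 4 * l * (n1 * (D.E p0 + D.F r0) +
      n0 * (D.V * p1 + D.U * r1)) - 4 * (l ^ 2 - l) * (D.V * p1 * D.F r0 + D.E p0 * (D.U * r1)),
    (j0 - 2 * n0) ^ 2 - 4 * n0 ^ 2 + 4 * l * n0 * (D.E p0 + D.F r0) -
      4 * (l ^ 2 - l) * (D.E p0 * D.F r0), fun h => ?_⟩
  have eJ : D.J0 (p0 + p1 * h) (r0 + r1 * h) - l * D.J1 (p0 + p1 * h) (r0 + r1 * h) =
      j0 + j1 * h + (p1 + r1) ^ 2 * h ^ 2 := by
    rw [hj0, hj1]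
    unfold Dat.J0 Dat.J1
    ring
  have eN : D.N (p0 + p1 * h) (r0 + r1 * h) = n0 + n1 * h + p1 * r1 * h ^ 2 := by
    rw [hn0, hn1]
    unfold Dat.N
    ring
  have eE : D.E (p0 + p1 * h) = D.E p0 + D.V * p1 * h := by
    unfold Dat.E
    ring
  have eF : D.F (r0 + r1 * h) = D.F r0 + D.U * r1 * h := by
    unfold Dat.F
    ring
  unfold Dat.Bq Dat.K
  rw [eJ, eN, eE, eF, c3, ← hj1, ← hn1]
  ring

end dat

/-- coefficients of a quartic polynomial function -/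
theorem quartic_ext {N : Type*} [Field N] [CharZero N] {a b c d e a' b' c' d' e' : N}
    (h : ∀ z : N, a * z ^ 4 + b * z ^ 3 + c * z ^ 2 + d * z + e =
      a' * z ^ 4 + b' * z ^ 3 + c' * z ^ 2 + d' * z + e') : a = a' ∧ b = b' := by
  have h0 := h 0
  have h1 := h 1
  have h2 := h (-1)
  have h3 := h 2
  have h4 := h (-2)
  constructor
  · linear_combination (h3 + h4 - 4 * h1 - 4 * h2 + 6 * h0) / 24
  · linear_combination (h3 - h4 - 2 * h1 + 2 * h2) / 12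

section yline

variable {N : Type} [Field N] [Algebra ℂ N] [CharZero N] {P : Par}
  {l y p0 p1 r0 r1 s0 s1 s2 : N}

theorem YLine_eval (L : YLine P l y p0 p1 r0 r1 s0 s1 s2) (h : N) :
    tB P l (p0 + p1 * h) (r0 + r1 * h) y = (s0 + s1 * h + s2 * h ^ 2) ^ 2 := by
  have h1 := congrArg (fun f => eval h f) L.eq
  simp only [eval_tB] at h1
  simp only [eval_add, eval_mul, eval_C, eval_X, eval_pow] at h1
  exact h1

theorem YLine_coef (L : YLine P l y p0 p1 r0 r1 s0 s1 s2) :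
    (p1 ^ 2 - r1 ^ 2) ^ 2 = s2 ^ 2 ∧ c3 (dat P y) l p0 p1 r0 r1 = 2 * s1 * s2 := by
  obtain ⟨c2, c1, c0, h⟩ := Bq_line (dat P y) l p0 p1 r0 r1
  refine quartic_ext (c := c2) (d := c1) (e := c0) (c' := s1 ^ 2 + 2 * s0 * s2)
    (d' := 2 * s0 * s1) (e' := s0 ^ 2) fun z => ?_
  rw [← h z]
  have h1 := YLine_eval L z
  unfold tB at h1
  rw [h1]
  ring

/-- **The direction of a line in a plane `y = const`.** -/
theorem YLine_dir (hQ : P.Q0 ≠ P.Q1) (hy : Transcendental ℂ y)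
    (L : YLine P l y p0 p1 r0 r1 s0 s1 s2) : p1 ^ 2 - r1 ^ 2 ≠ 0 := by
  intro h0
  obtain ⟨h1, h2⟩ := YLine_coef L
  rw [h0] at h1
  have hs2 : s2 = 0 := by
    have : s2 ^ 2 = 0 := by rw [← h1]; ring
    exact pow_eq_zero_iff two_ne_zero |>.1 this
  rw [hs2, mul_zero] at h2
  have h3 : (p1 - r1) * (p1 + r1) = 0 := by linear_combination h0
  rcases mul_eq_zero.1 h3 with h4 | h4
  · obtain rfl : r1 = p1 := by linear_combination -h4
    have h5 : r1 ^ 3 * (4 * y + algebraMap ℂ N P.Q0 + algebraMap ℂ N P.Q1) = 0 := by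
      unfold c3 dat fU fV fa fc at h2
      dsimp only at h2
      linear_combination h2 / 4
    rcases mul_eq_zero.1 h5 with h6 | h6
    · have h7 : r1 = 0 := pow_eq_zero_iff (by norm_num) |>.1 h6
      rcases L.ne with h8 | h8 <;> exact h8 h7
    · apply hy
      have h9 : y = algebraMap ℂ N (-(P.Q0 + P.Q1) / 4) := by
        rw [map_div₀, map_neg, map_add, map_ofNat, eq_div_iff (by norm_num : (4 : N) ≠ 0)]
        linear_combination h6
      rw [h9]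
      exact isAlgebraic_algebraMap _
  · obtain rfl : r1 = -p1 := by linear_combination h4
    have h5 : p1 ^ 3 * (algebraMap ℂ N (P.Q0 - P.Q1)) = 0 := by
      unfold c3 dat fU fV fa fc at h2
      dsimp only at h2
      rw [map_sub]
      linear_combination h2 / 4
    rcases mul_eq_zero.1 h5 with h6 | h6
    · have h7 : p1 = 0 := pow_eq_zero_iff (by norm_num) |>.1 h6
      rcases L.ne with h8 | h8
      · exact h8 h7
      · exact h8 (by rw [h7, neg_zero])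
    · exact hQ (sub_eq_zero.1 ((_root_.map_eq_zero _).1 h6))

end yline

end Vale.Agent.P297.H65
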