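import Vale.Agent.P297.H65.Z2.F4
import Vale.Agent.P297.Gen.Setup

/-!
Functoriality of the plane cubics; the plane of a general line through a node is general.
-/

set_option linter.unusedSimpArgs false
set_option linter.unusedSectionVars false
set_option linter.unusedVariables false

namespace Vale.Agent.P297.H65

open Polynomial Finset Vale.Agent.P297.Z2 Vale.Agent.P297.H160.Z2Irr Vale.Agent.P297.Gen

/-- the image of a cubic -/
def Cub.map {R R' : Type*} (G : Cub R) (f : R → R') : Cub R' where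
  g30 := f G.g30
  g21 := f G.g21
  g12 := f G.g12
  g03 := f G.g03
  g20 := f G.g20
  g11 := f G.g11
  g02 := f G.g02
  g10 := f G.g10
  g01 := f G.g01
  g00 := f G.g00

namespace Cub

variable {R R' : Type*} [CommRing R] [CommRing R'] (G : Cub R) (f : R →+* R')

theorem map_a1 (α : R) : f (G.a1 α) = (G.map f).a1 (f α) := by
  simp only [a1, Cub.map, map_add, map_mul, map_pow]

theorem map_a2 (α s : R) : f (G.a2 α s) = (G.map f).a2 (f α) (f s) := by
  simp only [a2, Cub.map, map_add, map_mul, map_pow, map_ofNat]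

theorem map_a3 (α s : R) : f (G.a3 α s) = (G.map f).a3 (f α) (f s) := by
  simp only [a3, Cub.map, map_add, map_mul, map_pow, map_ofNat]

theorem map_a4 (s : R) : f (G.a4 s) = (G.map f).a4 (f s) := by
  simp only [a4, Cub.map, map_add, map_mul, map_pow, map_ofNat]

theorem map_disc (α : R) : (G.disc α).map f = (G.map f).disc (f α) := by
  simp only [disc, p2, p3, p4, Cub.map, Polynomial.map_sub, Polynomial.map_mul,
    Polynomial.map_add, Polynomial.map_pow, map_C, map_X, map_add, map_mul, map_pow, map_ofNat,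
    Polynomial.map_ofNat]

end Cub

section

variable {R R' : Type*} [CommRing R] [CommRing R'] [Algebra ℂ R] [Algebra ℂ R'] (P : Par)
  (f : R →ₐ[ℂ] R')

theorem map_planeCub (l W : R) : (planeCub P l W).map f = planeCub P (f l) (f W) := by
  simp only [planeCub, rawCub, Cub.map, jc0, jc1, jc2, map_add, map_sub, map_mul, map_pow,
    map_neg, map_one, map_ofNat, AlgHom.commutes]

theorem map_tJ (l p r y : R) : f (tJ P l p r y) = tJ P (f l) (f p) (f r) (f y) := by
  unfold tJ Dat.J0 Dat.J1 dat
  simp only [map_add, map_sub, map_mul, map_pow, map_fU, map_fV, map_fa, map_fc, map_fe, map_fm]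

end

section

variable {N N' : Type} [Field N] [Algebra ℂ N] [Field N'] [Algebra ℂ N'] (P : Par)
  (f : N →ₐ[ℂ] N')

theorem map_disc_planeCub (l W α : N) :
    ((planeCub P l W).disc α).map (f : N →+* N') = (planeCub P (f l) (f W)).disc (f α) := by
  rw [Cub.map_disc, ← map_planeCub]
  rfl

theorem map_sx (l al al₂ p r s s' x : N) : f (sx P l al al₂ p r s s' x) =
    sx P (f l) (f al) (f al₂) (f p) (f r) (f s) (f s') (f x) := by
  have h := map_planeCub P f l (p + r)
  unfold sx b3 qs
  rw [map_add] at h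
  rw [← h]
  simp only [map_div₀, map_add, map_mul, map_sub, map_ofNat]
  rw [show f ((planeCub P l (p + r)).a3 al₂ x) =
      ((planeCub P l (p + r)).map f).a3 (f al₂) (f x) from Cub.map_a3 _ (f : N →+* N') _ _,
    show f ((planeCub P l (p + r)).a2 al₂ x) =
      ((planeCub P l (p + r)).map f).a2 (f al₂) (f x) from Cub.map_a2 _ (f : N →+* N') _ _]

/-- **Automorphisms permute the roots.** -/
theorem map_roots [IsAlgClosed N] (g : N ≃ₐ[ℂ] N) (l W α : N) :
    ((planeCub P l W).disc α).roots.map g = ((planeCub P (g l) (g W)).disc (g α)).roots := by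
  have h := map_disc_planeCub P (g : N →ₐ[ℂ] N) l W α
  have h1 := ((IsAlgClosed.splits ((planeCub P l W).disc α))).roots_map_of_injective
    (g : N →+* N).injective
  change _ = ((planeCub P ((g : N →ₐ[ℂ] N) l) ((g : N →ₐ[ℂ] N) W)).disc
    ((g : N →ₐ[ℂ] N) α)).roots
  rw [← h]
  exact h1.symm

end

section

variable {N : Type} [Field N] [Algebra ℂ N]

/-- a root of a nonzero polynomial over an algebraically closed subfield -/
theorem mem_of_root {F : IntermediateField ℂ N} (hF : ∀ u, IsAlgebraic F u → u ∈ F) {g : N[X]}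
    (hg : g ∈ Polynomial.lifts (algebraMap F N)) (h0 : g ≠ 0) {x : N} (hx : g.eval x = 0) :
    x ∈ F := by
  obtain ⟨q, hq⟩ := (Polynomial.mem_lifts g).1 hg
  refine hF _ ⟨q, ?_, ?_⟩
  · rintro rfl
    rw [Polynomial.map_zero] at hq
    exact h0 hq.symm
  · rw [aeval_def, ← eval_map, hq]
    exact hx

theorem disc_lifts {P : Par} {F : IntermediateField ℂ N} {l W α : N} (hl : l ∈ F) (hW : W ∈ F)
    (hα : α ∈ F) : (planeCub P l W).disc α ∈ Polynomial.lifts (algebraMap F N) := by
  rw [Polynomial.mem_lifts]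
  refine ⟨(planeCub P (⟨l, hl⟩ : F) ⟨W, hW⟩).disc ⟨α, hα⟩, ?_⟩
  exact map_disc_planeCub P (F.val : F →ₐ[ℂ] N) ⟨l, hl⟩ ⟨W, hW⟩ ⟨α, hα⟩

variable [IsAlgClosed N] [CharZero N] {P : Par} {l al be al₂ be₂ al₃ be₃ p r s s' : N}

/-- **The plane of a general line is general.** -/
theorem W_notMem (hM : P.M1 = 0) (hQ : P.Q0 ≠ P.Q1) (L : NLine P l al be p r s s')
    (n₂ : IsNode P l al₂ be₂) (n₃ : IsNode P l al₃ be₃) (h12 : al ≠ al₂) (h13 : al ≠ al₃)
    (h23 : al₂ ≠ al₃) (hal : al ∈ cl0 {l}) (hg : p ∉ cl0 {l} ∨ r ∉ cl0 {l}) :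
    p + r ∉ cl0 {l} := by
  intro hW
  have hl : l ∈ cl0 {l} := subset_cl0 {l} rfl
  have hlead := lead_ne hM hQ n₂ L.node n₃ h12.symm h23 h13 (p + r)
  have hdeg := Cub.disc_natDegree _ hlead
  have hne : (planeCub P l (p + r)).disc al ≠ 0 := by
    intro h0
    rw [h0, natDegree_zero] at hdeg
    omega
  have hp : p ∈ cl0 {l} := by
    refine mem_of_root (cl0_closed {l}) (disc_lifts hl hW hal) hne ?_
    rw [disc_iff hM L.node]
    exact L.disc hM
  rcases hg with h | h
  · exact h hp
  · apply h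
    have := sub_mem hW hp
    rwa [add_sub_cancel_left] at this

end

end Vale.Agent.P297.H65
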