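import Vale.Agent.P297.H65.Z2.SJ
import Vale.Agent.P297.H946.Z2.F
import Vale.Agent.P297.H927.Der

/-!
(F) for the nodes of `T_l`, and the final form of the four-line relation.
-/

set_option linter.unusedSimpArgs false
set_option linter.unusedSectionVars false
set_option linter.unusedVariables false

namespace Vale.Agent.P297.H65

open Polynomial Finset Vale.Agent.P297.Z2 Vale.Agent.P297.H160.Z2Irr Vale.Agent.P297.Gen

variable {N : Type} [Field N] [Algebra ℂ N] [CharZero N] {P : Par}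
  {l al be al₂ be₂ al₃ be₃ p r s s' : N}

open Vale.Agent.P297.H927 Vale.Agent.P297.H946.Z2F in
theorem killedD (D : Derivation ℤ N N) (h : IsNode P l al be)
    (hDC : ∀ z : ℂ, D (algebraMap ℂ N z) = 0) (hDl : D l = 0) (hDal : D al = 0) :
    KilledD D (toPP (ntd P l al be)) := by
  have hz : ∀ z : ℂ, algebraMap ℂ N z ∈ consts D := fun z => mem_consts.2 (hDC z)
  have hl : l ∈ consts D := mem_consts.2 hDl
  have hal : al ∈ consts D := mem_consts.2 hDal
  have hbe : be ∈ consts D := by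
    have : be = al + (1 - l) := by linear_combination h.sub
    rw [this]
    exact add_mem hal (sub_mem (one_mem _) hl)
  have h2 : (2 : N) ∈ consts D := ofNat_mem _ 2
  have hA : be * algebraMap ℂ N P.P2 / al ∈ consts D := div_mem (mul_mem hbe (hz _)) hal
  have hC : al * algebraMap ℂ N P.P0 / be ∈ consts D := div_mem (mul_mem hal (hz _)) hbe
  refine ⟨hDal, mem_consts.1 hbe, hDl, mem_consts.1 hA, mem_consts.1 hC,
    mem_consts.1 (sub_mem (mul_mem hal (hz _)) hC),
    mem_consts.1 (sub_mem (neg_mem (mul_mem hbe (hz _))) hA), mem_consts.1 ?_, mem_consts.1 ?_,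
    mem_consts.1 ?_⟩
  · exact add_mem (mul_mem (mul_mem hal hbe) (sub_mem (hz _) (mul_mem hl (add_mem (hz _) (hz _)))))
      (mul_mem (mul_mem hl (sub_mem hbe hal)) hA)
  · exact add_mem (mul_mem (mul_mem hal hbe) (sub_mem (hz _) (mul_mem hl (add_mem (hz _) (hz _)))))
      (mul_mem (mul_mem hl (sub_mem hbe hal)) hC)
  · refine sub_mem (sub_mem (sub_mem (add_mem (neg_mem (mul_mem (mul_mem hal hbe)
      (sub_mem (hz _) (mul_mem hl (hz _))))) ?_) ?_) ?_) ?_
    · exact mul_mem (mul_mem (mul_mem (mul_mem h2 hl) (sub_mem hbe hal)) hA) hC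
    · exact mul_mem (mul_mem (mul_mem (mul_mem (mul_mem hl (sub_mem hbe hal)) hal) hbe) (hz _)) (hz _)
    · exact mul_mem (mul_mem (mul_mem (mul_mem hl hal) (sub_mem (mul_mem h2 hbe) hal)) hA) (hz _)
    · exact mul_mem (mul_mem (mul_mem (mul_mem hl hbe) (sub_mem (mul_mem h2 hal) hbe)) hC) (hz _)

open Vale.Agent.P297.H946.Z2F in
/-- **(F)** -/
theorem fAt (hM : P.M1 = 0) (hl1 : l ≠ 1) : FAt P l := by
  intro al be p r s D h hDC hDl hDal hd hs hs0 hk hq
  have he0 : be - al ≠ 0 := by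
    rw [h.sub]
    exact sub_ne_zero.2 (Ne.symm hl1)
  have hab : al * be ≠ 0 := mul_ne_zero h.al0 h.be0
  have hr : p + r - p = r := by ring
  have hg : ∀ z, (C ((al * be) ^ 2) * (planeCub P l (p + r)).disc al).eval z =
      (ntd P l al be).b1 z (p + r - z) ^ 2 -
        4 * (ntd P l al be).B2 z (p + r - z) * (ntd P l al be).b0 z (p + r - z) := by
    intro z
    obtain ⟨c2, c3, c4⟩ := plane_coef hM h z (p + r - z)
    rw [show z + (p + r - z) = p + r by ring] at c2 c3 c4
    rw [eval_mul, eval_C, Cub.eval_disc, ← c2, ← c3, ← c4]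
    ring
  have key := F_plane (d := ntd P l al be) (W := p + r) (p := p) (s := s) rfl he0 D
    (killedD D h hDC hDl hDal) hg (by rw [hr]; exact hk) (by rw [hr]; exact hd)
    (by rw [hr]; exact hs) hs0 (by rw [hr]; exact hq)
  rw [hr, derivative_C_mul, eval_mul, eval_C] at key
  have h3 := tJ_line hM h p r (yt P l al p r)
  obtain ⟨c2, c3, c4⟩ := plane_coef hM h p r
  have hB : (ntd P l al be).B2 p r ≠ 0 := by
    rw [← hs]
    exact pow_ne_zero 2 hs0
  have e1 : al * be * yt P l al p r = -(ntd P l al be).b1 p r / (2 * s ^ 2) := by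
    unfold yt
    rw [c2, ← c3, ← hs]
    field_simp
  have e2 : (ntd P l al be).jn p r - (ntd P l al be).l * ((p - (ntd P l al be).pn) +
      (r - (ntd P l al be).rn)) * (ntd P l al be).b1 p r / (2 * s ^ 2) =
      al * be * tJ P l (al * yt P l al p r + p) (-be * yt P l al p r + r) (yt P l al p r) := by
    rw [h3]
    change _ - l * _ * _ / _ = _
    linear_combination (-l * ((p - (ntd P l al be).pn) + (r - (ntd P l al be).rn))) * e1
  rw [e2] at key
  apply mul_left_cancel₀ (pow_ne_zero 2 hab)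
  generalize tJ P l (al * yt P l al p r + p) (-be * yt P l al p r + r) (yt P l al p r) = J at *
  have e3 : (al * be) ^ 2 * -(8 * (s * J) * ((ntd P l al be).vf p r s / (al * be)) * D (p + r)) =
      -(8 * (ntd P l al be).vf p r s * (s * (al * be * J)) * D (p + r)) := by
    field_simp
  rw [e3, ← key]
  ring

/-- **[FOUR]**: the relation of the differentials of a line through one node and of the four lines
through another node that meet it in a plane. -/
theorem four_F4_fin [IsAlgClosed N] [DecidableEq N] (hM : P.M1 = 0) (hQ : P.Q0 ≠ P.Q1)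
    (hl1 : l ≠ 1) (L : NLine P l al be p r s s') (n₂ : IsNode P l al₂ be₂)
    (n₃ : IsNode P l al₃ be₃) (h12 : al ≠ al₂) (h13 : al ≠ al₃) (h23 : al₂ ≠ al₃) (hs : s ≠ 0)
    (hk : (ntd P l al be).ka p r ≠ 0) (hq : (ntd P l al be).q2 ((ntd P l al be).Xf p r) ≠ 0)
    (hv : (ntd P l al be).vf p r s ≠ 0)
    (hd1 : (derivative ((planeCub P l (p + r)).disc al)).eval p ≠ 0)
    (hnd : ((planeCub P l (p + r)).disc al₂).roots.Nodup)
    (hB : ∀ x ∈ ((planeCub P l (p + r)).disc al₂).roots,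
      (ntd P l al₂ be₂).B2 x (p + r - x) ≠ 0)
    (hk2 : ∀ x ∈ ((planeCub P l (p + r)).disc al₂).roots,
      (ntd P l al₂ be₂).ka x (p + r - x) ≠ 0)
    (hq2 : ∀ x ∈ ((planeCub P l (p + r)).disc al₂).roots,
      (ntd P l al₂ be₂).q2 ((ntd P l al₂ be₂).Xf x (p + r - x)) ≠ 0)
    (hv2 : ∀ x ∈ ((planeCub P l (p + r)).disc al₂).roots,
      (ntd P l al₂ be₂).vf x (p + r - x) (sx P l al al₂ p r s s' x) ≠ 0)
    (D : Derivation ℤ N N) (hDC : ∀ z : ℂ, D (algebraMap ℂ N z) = 0) (hDl : D l = 0)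
    (hD1 : D al = 0) (hD2 : D al₂ = 0) :
    2 * (D ((ntd P l al be).Xf p r) / ((ntd P l al be).vf p r s / (al * be))) +
      ∑ x ∈ ((planeCub P l (p + r)).disc al₂).roots.toFinset,
        D ((ntd P l al₂ be₂).Xf x (p + r - x)) /
          ((ntd P l al₂ be₂).vf x (p + r - x) (sx P l al al₂ p r s s' x) / (al₂ * be₂)) = 0 :=
  four_F4_at hM hQ (fAt hM hl1) L n₂ n₃ h12 h13 h23 hs hk hq hv hd1 hnd hB hk2 hq2 hv2 D hDC hDl
    hD1 hD2

/-- **Simple roots** from (F). -/
theorem deriv_ne_fin (hM : P.M1 = 0) (hl1 : l ≠ 1) (h : IsNode P l al be)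
    (hd : (ntd P l al be).b1 p r ^ 2 = 4 * (ntd P l al be).B2 p r * (ntd P l al be).b0 p r)
    (hs : s ^ 2 = (ntd P l al be).B2 p r) (hs0 : s ≠ 0) (hk : (ntd P l al be).ka p r ≠ 0)
    (hq : (ntd P l al be).q2 ((ntd P l al be).Xf p r) ≠ 0)
    (hv : (ntd P l al be).vf p r s ≠ 0) (D : Derivation ℤ N N)
    (hDC : ∀ z : ℂ, D (algebraMap ℂ N z) = 0) (hDl : D l = 0) (hD1 : D al = 0)
    (hDW : D (p + r) ≠ 0) :
    (derivative ((planeCub P l (p + r)).disc al)).eval p ≠ 0 := by
  intro h0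
  have he : be - al ≠ 0 := by
    rw [h.sub]
    exact sub_ne_zero.2 (Ne.symm hl1)
  have h1 := fAt hM hl1 al be p r s D h hDC hDl hD1 hd hs hs0 hk hq
  rw [h0, mul_zero] at h1
  have hw := TD.wf_ne (d := ntd P l al be) rfl he hk hd hs hs0 hq
  have h2 := sJ_eq hM h hd hs hs0 hk he
  have h3 : s * tJ P l (al * yt P l al p r + p) (-be * yt P l al p r + r)
      (yt P l al p r) ≠ 0 := by
    intro h4
    rw [h4, mul_zero] at h2
    exact mul_ne_zero (mul_ne_zero two_ne_zero hk) hw h2.symm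
  have hab : al * be ≠ 0 := mul_ne_zero h.al0 h.be0
  have h5 := neg_eq_zero.1 h1.symm
  exact mul_ne_zero (mul_ne_zero (mul_ne_zero (by norm_num) h3) (div_ne_zero hv hab)) hDW h5

end Vale.Agent.P297.H65
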