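import Vale.Agent.P297.H65.Z2.Plane

/-!
The differential relation between a line through one node and the four lines through another one
in the same plane that meet it.
-/

set_option linter.unusedSimpArgs false
set_option linter.unusedSectionVars false
set_option linter.unusedVariables false

namespace Vale.Agent.P297.H65

open Polynomial Finset Vale.Agent.P297.Z2 Vale.Agent.P297.H160.Z2Irr

/-- **(F)** The derivative of the function `X` on the curve of the tangent lines. -/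
def FStmt (P : Par) (N : Type) [Field N] [Algebra ℂ N] : Prop :=
  ∀ (l al be p r s : N) (D : Derivation ℤ N N), IsNode P l al be →
    (∀ z : ℂ, D (algebraMap ℂ N z) = 0) → D l = 0 → D al = 0 →
    (ntd P l al be).b1 p r ^ 2 = 4 * (ntd P l al be).B2 p r * (ntd P l al be).b0 p r →
    s ^ 2 = (ntd P l al be).B2 p r → s ≠ 0 → (ntd P l al be).ka p r ≠ 0 →
    (ntd P l al be).q2 ((ntd P l al be).Xf p r) ≠ 0 →
    D ((ntd P l al be).Xf p r) * (derivative ((planeCub P l (p + r)).disc al)).eval p =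
      -(8 * (s * tJ P l (al * yt P l al p r + p) (-be * yt P l al p r + r) (yt P l al p r)) *
        ((ntd P l al be).vf p r s / (al * be)) * D (p + r))

/-- (F) over one value of `l`. -/
def FAt (P : Par) {N : Type} [Field N] [Algebra ℂ N] (l : N) : Prop :=
  ∀ (al be p r s : N) (D : Derivation ℤ N N), IsNode P l al be →
    (∀ z : ℂ, D (algebraMap ℂ N z) = 0) → D l = 0 → D al = 0 →
    (ntd P l al be).b1 p r ^ 2 = 4 * (ntd P l al be).B2 p r * (ntd P l al be).b0 p r →
    s ^ 2 = (ntd P l al be).B2 p r → s ≠ 0 → (ntd P l al be).ka p r ≠ 0 →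
    (ntd P l al be).q2 ((ntd P l al be).Xf p r) ≠ 0 →
    D ((ntd P l al be).Xf p r) * (derivative ((planeCub P l (p + r)).disc al)).eval p =
      -(8 * (s * tJ P l (al * yt P l al p r + p) (-be * yt P l al p r + r) (yt P l al p r)) *
        ((ntd P l al be).vf p r s / (al * be)) * D (p + r))

variable {N : Type} [Field N] [Algebra ℂ N] [CharZero N] {P : Par}
  {l al be al₂ be₂ al₃ be₃ p r s s' : N}

theorem sx_sq (hM : P.M1 = 0) (L : NLine P l al be p r s s') (n₂ : IsNode P l al₂ be₂)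
    (h12 : al ≠ al₂) (hs : s ≠ 0)
    (hd1 : (derivative ((planeCub P l (p + r)).disc al)).eval p ≠ 0) {x : N}
    (hx : ((planeCub P l (p + r)).disc al₂).eval x = 0) :
    sx P l al al₂ p r s s' x ^ 2 = (ntd P l al₂ be₂).B2 x (p + r - x) := by
  classical
  obtain ⟨c2, c3, c4⟩ := NLine_cub hM L
  have a1 := node_a1 hM L.node (p + r)
  have a2 := node_a1 hM n₂ (p + r)
  have hq := qs_ne _ h12 a1 a2 c2 c3 c4 hs hd1 hx
  have e1 := disc_eq (planeCub P l (p + r)) h12 a1 a2 c2 c3 c4 x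
  have h5 := (plane_coef hM n₂ x (p + r - x)).1
  rw [show x + (p + r - x) = p + r by ring] at h5
  rw [Cub.eval_disc] at hx
  have h6 : b3 (planeCub P l (p + r)) al al₂ p x ^ 2 =
      4 * (planeCub P l (p + r)).a2 al₂ x * qs al al₂ p s s' x ^ 2 := by
    rw [← e1]
    unfold b3
    linear_combination hx
  unfold sx
  rw [← h5, div_pow, h6]
  field_simp
  ring

/-- The component over a root, with its second coefficient. -/
theorem nline_sx (hM : P.M1 = 0) (L : NLine P l al be p r s s') (n₂ : IsNode P l al₂ be₂)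
    (h12 : al ≠ al₂) (hs : s ≠ 0)
    (hd1 : (derivative ((planeCub P l (p + r)).disc al)).eval p ≠ 0) {x : N}
    (hx : ((planeCub P l (p + r)).disc al₂).eval x = 0)
    (hB : (ntd P l al₂ be₂).B2 x (p + r - x) ≠ 0) :
    sx P l al al₂ p r s s' x ≠ 0 ∧
      NLine P l al₂ be₂ x (p + r - x) (sx P l al al₂ p r s s' x)
        (sp P l al₂ be₂ x (p + r - x) (sx P l al al₂ p r s s' x)) := by
  have h1 := sx_sq hM L n₂ h12 hs hd1 hx
  have h2 : sx P l al al₂ p r s s' x ≠ 0 := by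
    intro h0
    apply hB
    rw [← h1, h0]
    ring
  refine ⟨h2, nline_of hM n₂ ?_ h1 h2⟩
  rw [← disc_iff hM n₂, show x + (p + r - x) = p + r by ring]
  exact hx

/-- **[FOUR]**, from (F) over one value of `l`. -/
theorem four_F4_at [IsAlgClosed N] [DecidableEq N] (hM : P.M1 = 0) (hQ : P.Q0 ≠ P.Q1)
    (hF : FAt P l) (L : NLine P l al be p r s s') (n₂ : IsNode P l al₂ be₂)
    (n₃ : IsNode P l al₃ be₃) (h12 : al ≠ al₂) (h13 : al ≠ al₃) (h23 : al₂ ≠ al₃) (hs : s ≠ 0)
    (hk : (ntd P l al be).ka p r ≠ 0) (hq : (ntd P l al be).q2 ((ntd P l al be).Xf p r) ≠ 0)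
    (hv : (ntd P l al be).vf p r s ≠ 0)
    (hd1 : (derivative ((planeCub P l (p + r)).disc al)).eval p ≠ 0)
    (hnd : ((planeCub P l (p + r)).disc al₂).roots.Nodup)
    (hB : ∀ x ∈ ((planeCub P l (p + r)).disc al₂).roots,
      (ntd P l al₂ be₂).B2 x (p + r - x) ≠ 0)
    (hk2 : ∀ x ∈ ((planeCub P l (p + r)).disc al₂).roots,
      (ntd P l al₂ be₂).ka x (p + r - x) ≠ 0)
    (hq2 : ∀ x ∈ ((planeCub P l (p + r)).disc al₂).roots,
      (ntd P l al₂ be₂).q2 ((ntd P l al₂ be₂).Xf x (p + r - x)) ≠ 0)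
    (hv2 : ∀ x ∈ ((planeCub P l (p + r)).disc al₂).roots,
      (ntd P l al₂ be₂).vf x (p + r - x) (sx P l al al₂ p r s s' x) ≠ 0)
    (D : Derivation ℤ N N) (hDC : ∀ z : ℂ, D (algebraMap ℂ N z) = 0) (hDl : D l = 0)
    (hD1 : D al = 0) (hD2 : D al₂ = 0) :
    2 * (D ((ntd P l al be).Xf p r) / ((ntd P l al be).vf p r s / (al * be))) +
      ∑ x ∈ ((planeCub P l (p + r)).disc al₂).roots.toFinset,
        D ((ntd P l al₂ be₂).Xf x (p + r - x)) /
          ((ntd P l al₂ be₂).vf x (p + r - x) (sx P l al al₂ p r s s' x) / (al₂ * be₂)) = 0 := by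
  have hlead := lead_ne hM hQ L.node n₂ n₃ h12 h13 h23 (p + r)
  have hdeg := Cub.disc_natDegree _ hlead
  have hne : (planeCub P l (p + r)).disc al₂ ≠ 0 := by
    intro h0
    rw [h0, natDegree_zero] at hdeg
    omega
  have key := four_lines hM hQ L n₂ n₃ h12 h13 h23 hs hd1 hnd hB
  have aux : ∀ a b c d e : N, b ≠ 0 → d ≠ 0 → a * b = -(8 * c * d * e) →
      a / d = -(8 * (c / b) * e) := by
    intro a b c d e hb hd h
    rw [div_eq_iff hd]
    apply mul_right_cancel₀ hb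
    rw [h]
    field_simp
  have e1 : D ((ntd P l al be).Xf p r) / ((ntd P l al be).vf p r s / (al * be)) =
      -(8 * fv P l al be p r s * D (p + r)) := by
    have h1 := hF al be p r s D L.node hDC hDl hD1 (L.disc hM) (L.facts hM).1 hs hk hq
    have hv' : (ntd P l al be).vf p r s / (al * be) ≠ 0 :=
      div_ne_zero hv (mul_ne_zero L.node.al0 L.node.be0)
    exact aux _ _ _ _ _ hd1 hv' h1
  have e2 : ∀ x ∈ ((planeCub P l (p + r)).disc al₂).roots.toFinset,
      D ((ntd P l al₂ be₂).Xf x (p + r - x)) /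
          ((ntd P l al₂ be₂).vf x (p + r - x) (sx P l al al₂ p r s s' x) / (al₂ * be₂)) =
      -(8 * fv P l al₂ be₂ x (p + r - x) (sx P l al al₂ p r s s' x) * D (p + r)) := by
    intro x hx
    have hx' := Multiset.mem_toFinset.1 hx
    have hW : x + (p + r - x) = p + r := by ring
    have hroot : ((planeCub P l (p + r)).disc al₂).eval x = 0 := (mem_roots'.1 hx').2
    have hds : (ntd P l al₂ be₂).b1 x (p + r - x) ^ 2 = 4 * (ntd P l al₂ be₂).B2 x (p + r - x) *
        (ntd P l al₂ be₂).b0 x (p + r - x) := by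
      rw [← disc_iff hM n₂, hW]
      exact hroot
    have hsq := sx_sq hM L n₂ h12 hs hd1 hroot
    have hs0 := (nline_sx hM L n₂ h12 hs hd1 hroot (hB x hx')).1
    have hd2 : (derivative ((planeCub P l (p + r)).disc al₂)).eval x ≠ 0 := by
      intro h0
      have h5 := (one_lt_rootMultiplicity_iff_isRoot hne).2 ⟨hroot, h0⟩
      rw [← count_roots] at h5
      have h6 := Multiset.nodup_iff_count_le_one.1 hnd x
      omega
    have h1 := hF al₂ be₂ x (p + r - x) _ D n₂ hDC hDl hD2 hds hsq hs0 (hk2 x hx') (hq2 x hx')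
    have hv' : (ntd P l al₂ be₂).vf x (p + r - x) (sx P l al al₂ p r s s' x) / (al₂ * be₂) ≠ 0 :=
      div_ne_zero (hv2 x hx') (mul_ne_zero n₂.al0 n₂.be0)
    have h3 : fv P l al₂ be₂ x (p + r - x) (sx P l al al₂ p r s s' x) =
        sx P l al al₂ p r s s' x * tJ P l (al₂ * yt P l al₂ x (p + r - x) + x)
          (-be₂ * yt P l al₂ x (p + r - x) + (p + r - x)) (yt P l al₂ x (p + r - x)) /
        (derivative ((planeCub P l (p + r)).disc al₂)).eval x := by
      unfold fv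
      rw [hW]
    rw [hW] at h1
    rw [h3]
    exact aux _ _ _ _ _ hd2 hv' h1
  rw [e1, Finset.sum_congr rfl e2, Finset.sum_neg_distrib, ← Finset.sum_mul, ← Finset.mul_sum, key]
  ring

/-- **[FOUR]** -/
theorem four_F4 [IsAlgClosed N] [DecidableEq N] (hM : P.M1 = 0) (hQ : P.Q0 ≠ P.Q1)
    (hF : FStmt P N) (L : NLine P l al be p r s s') (n₂ : IsNode P l al₂ be₂)
    (n₃ : IsNode P l al₃ be₃) (h12 : al ≠ al₂) (h13 : al ≠ al₃) (h23 : al₂ ≠ al₃) (hs : s ≠ 0)
    (hk : (ntd P l al be).ka p r ≠ 0) (hq : (ntd P l al be).q2 ((ntd P l al be).Xf p r) ≠ 0)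
    (hv : (ntd P l al be).vf p r s ≠ 0)
    (hd1 : (derivative ((planeCub P l (p + r)).disc al)).eval p ≠ 0)
    (hnd : ((planeCub P l (p + r)).disc al₂).roots.Nodup)
    (hB : ∀ x ∈ ((planeCub P l (p + r)).disc al₂).roots,
      (ntd P l al₂ be₂).B2 x (p + r - x) ≠ 0)
    (hk2 : ∀ x ∈ ((planeCub P l (p + r)).disc al₂).roots,
      (ntd P l al₂ be₂).ka x (p + r - x) ≠ 0)
    (hq2 : ∀ x ∈ ((planeCub P l (p + r)).disc al₂).roots,
      (ntd P l al₂ be₂).q2 ((ntd P l al₂ be₂).Xf x (p + r - x)) ≠ 0)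
    (hv2 : ∀ x ∈ ((planeCub P l (p + r)).disc al₂).roots,
      (ntd P l al₂ be₂).vf x (p + r - x) (sx P l al al₂ p r s s' x) ≠ 0)
    (D : Derivation ℤ N N) (hDC : ∀ z : ℂ, D (algebraMap ℂ N z) = 0) (hDl : D l = 0)
    (hD1 : D al = 0) (hD2 : D al₂ = 0) :
    2 * (D ((ntd P l al be).Xf p r) / ((ntd P l al be).vf p r s / (al * be))) +
      ∑ x ∈ ((planeCub P l (p + r)).disc al₂).roots.toFinset,
        D ((ntd P l al₂ be₂).Xf x (p + r - x)) /
          ((ntd P l al₂ be₂).vf x (p + r - x) (sx P l al al₂ p r s s' x) / (al₂ * be₂)) = 0 :=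
  four_F4_at hM hQ (hF l) L n₂ n₃ h12 h13 h23 hs hk hq hv hd1 hnd hB hk2 hq2 hv2 D hDC hDl hD1 hD2

end Vale.Agent.P297.H65
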