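import Vale.Agent.P297.H65.Z2.Res

/-!
The four-root identity: a plane cubic `G` with two points at infinity `(α₁ : 1)`, `(α₂ : 1)`, a
line `c` through the first on which `G` is a square, and the four lines through the second one on
which `G` is a square.
-/

set_option linter.unusedSimpArgs false
set_option linter.unusedSectionVars false

namespace Vale.Agent.P297.H65

open Polynomial Finset

/-- A polynomial of degree three in `(p, y)`. -/
structure Cub (R : Type*) where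
  g30 : R
  g21 : R
  g12 : R
  g03 : R
  g20 : R
  g11 : R
  g02 : R
  g10 : R
  g01 : R
  g00 : R

namespace Cub

section ring

variable {R : Type*} [CommRing R] (G : Cub R)

def ev (p y : R) : R :=
  G.g30 * p ^ 3 + G.g21 * p ^ 2 * y + G.g12 * p * y ^ 2 + G.g03 * y ^ 3 + G.g20 * p ^ 2 +
    G.g11 * p * y + G.g02 * y ^ 2 + G.g10 * p + G.g01 * y + G.g00

/-- the coefficients of `G (α y + s, y)` -/
def a1 (α : R) : R := G.g30 * α ^ 3 + G.g21 * α ^ 2 + G.g12 * α + G.g03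

def a2 (α s : R) : R :=
  (G.g20 * α ^ 2 + G.g11 * α + G.g02) + (3 * G.g30 * α ^ 2 + 2 * G.g21 * α + G.g12) * s

def a3 (α s : R) : R :=
  (G.g10 * α + G.g01) + (2 * G.g20 * α + G.g11) * s + (3 * G.g30 * α + G.g21) * s ^ 2

def a4 (s : R) : R := G.g00 + G.g10 * s + G.g20 * s ^ 2 + G.g30 * s ^ 3

theorem ev_line (α s y : R) :
    G.ev (α * y + s) y = G.a1 α * y ^ 3 + G.a2 α s * y ^ 2 + G.a3 α s * y + G.a4 s := by
  unfold ev a1 a2 a3 a4
  ring

/-- the discriminant as a polynomial in `s` -/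
noncomputable def p2 (α : R) : R[X] :=
  C (G.g20 * α ^ 2 + G.g11 * α + G.g02) + C (3 * G.g30 * α ^ 2 + 2 * G.g21 * α + G.g12) * X

noncomputable def p3 (α : R) : R[X] :=
  C (G.g10 * α + G.g01) + C (2 * G.g20 * α + G.g11) * X + C (3 * G.g30 * α + G.g21) * X ^ 2

noncomputable def p4 : R[X] := C G.g00 + C G.g10 * X + C G.g20 * X ^ 2 + C G.g30 * X ^ 3

/-- **the discriminant**: its roots are the tangent lines in the direction `(α : 1)` -/
noncomputable def disc (α : R) : R[X] := G.p3 α ^ 2 - 4 * G.p2 α * G.p4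

theorem eval_p2 (α s : R) : (G.p2 α).eval s = G.a2 α s := by simp [p2, a2]

theorem eval_p3 (α s : R) : (G.p3 α).eval s = G.a3 α s := by simp [p3, a3]

theorem eval_p4 (s : R) : (G.p4).eval s = G.a4 s := by simp [p4, a4]

theorem eval_disc (α s : R) :
    (G.disc α).eval s = G.a3 α s ^ 2 - 4 * G.a2 α s * G.a4 s := by
  simp [disc, eval_p2, eval_p3, eval_p4]

theorem deriv_p2 (α s : R) : (derivative (G.p2 α)).eval s =
    3 * G.g30 * α ^ 2 + 2 * G.g21 * α + G.g12 := by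
  simp only [p2, derivative_add, derivative_C, derivative_C_mul, derivative_X, eval_add,
    eval_zero, eval_C_mul, eval_one, mul_one, zero_add, eval_C]

theorem deriv_p3 (α s : R) : (derivative (G.p3 α)).eval s =
    (2 * G.g20 * α + G.g11) + 2 * (3 * G.g30 * α + G.g21) * s := by
  simp only [p3, derivative_add, derivative_C, derivative_C_mul, derivative_X, eval_add,
    eval_zero, eval_C_mul, eval_one, mul_one, zero_add, eval_C, derivative_X_pow, eval_mul,
    eval_pow, eval_X, Nat.cast_ofNat, eval_ofNat, map_ofNat]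
  ring

theorem deriv_p4 (s : R) : (derivative G.p4).eval s =
    G.g10 + 2 * G.g20 * s + 3 * G.g30 * s ^ 2 := by
  simp only [p4, derivative_add, derivative_C, derivative_C_mul, derivative_X, eval_add,
    eval_zero, eval_C_mul, eval_one, mul_one, zero_add, eval_C, derivative_X_pow, eval_mul,
    eval_pow, eval_X, Nat.cast_ofNat, eval_ofNat, map_ofNat]
  ring

/-- the derivative of `G` with respect to `p` -/
def dp (p y : R) : R :=
  3 * G.g30 * p ^ 2 + 2 * G.g21 * p * y + G.g12 * y ^ 2 + 2 * G.g20 * p + G.g11 * y + G.g10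

def dy (p y : R) : R :=
  G.g21 * p ^ 2 + 2 * G.g12 * p * y + 3 * G.g03 * y ^ 2 + G.g11 * p + 2 * G.g02 * y + G.g01

theorem der_line (α s y : R) : 3 * G.a1 α * y ^ 2 + 2 * G.a2 α s * y + G.a3 α s =
    α * G.dp (α * y + s) y + G.dy (α * y + s) y := by
  unfold a1 a2 a3 dp dy
  ring

end ring

section field

variable {N : Type*} [Field N] (G : Cub N)

/-- the derivative of the discriminant at a line on which `G = (s₁ y + g₀)²` -/
theorem deriv_disc {α p s g : N} (h2 : G.a2 α p = s ^ 2) (h3 : G.a3 α p = 2 * s * g)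
    (h4 : G.a4 p = g ^ 2) (hs : s ≠ 0) :
    (derivative (G.disc α)).eval p = -(4 * s ^ 2 * G.dp (α * (-g / s) + p) (-g / s)) := by
  have e : (derivative (G.disc α)).eval p =
      2 * G.a3 α p * ((2 * G.g20 * α + G.g11) + 2 * (3 * G.g30 * α + G.g21) * p) -
      4 * ((3 * G.g30 * α ^ 2 + 2 * G.g21 * α + G.g12) * G.a4 p +
        G.a2 α p * (G.g10 + 2 * G.g20 * p + 3 * G.g30 * p ^ 2)) := by
    simp only [disc, derivative_sub, derivative_mul, derivative_pow, eval_sub, eval_add, eval_mul,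
      eval_pow, deriv_p2, deriv_p3, deriv_p4, eval_p2, eval_p3, eval_p4, derivative_ofNat,
      eval_ofNat, Nat.cast_ofNat, eval_C, eval_zero, map_ofNat]
    ring
  rw [e, h2, h3, h4]
  unfold dp
  field_simp
  ring

/-- the coefficient of `s ^ 4` -/
def lead (α : N) : N :=
  (3 * G.g30 * α + G.g21) ^ 2 - 4 * (3 * G.g30 * α ^ 2 + 2 * G.g21 * α + G.g12) * G.g30

theorem lead_eq {α₁ α₂ α₃ : N} (h12 : α₁ ≠ α₂) (h13 : α₁ ≠ α₃) (h23 : α₂ ≠ α₃)
    (n1 : G.a1 α₁ = 0) (n2 : G.a1 α₂ = 0) (n3 : G.a1 α₃ = 0) :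
    G.lead α₂ = (G.g30 * (α₁ - α₃)) ^ 2 := by
  have e1 : G.g30 * (α₁ ^ 2 + α₁ * α₂ + α₂ ^ 2) + G.g21 * (α₁ + α₂) + G.g12 = 0 := by
    apply mul_left_cancel₀ (sub_ne_zero.2 h12)
    unfold a1 at n1 n2
    linear_combination n1 - n2
  have e2 : G.g30 * (α₃ ^ 2 + α₃ * α₂ + α₂ ^ 2) + G.g21 * (α₃ + α₂) + G.g12 = 0 := by
    apply mul_left_cancel₀ (sub_ne_zero.2 h23)
    unfold a1 at n2 n3
    linear_combination n2 - n3
  have e3 : G.g21 = -(G.g30 * (α₁ + α₂ + α₃)) := by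
    apply mul_left_cancel₀ (sub_ne_zero.2 h13)
    linear_combination e1 - e2
  have e4 : G.g12 = -(G.g30 * (α₁ ^ 2 + α₁ * α₂ + α₂ ^ 2)) - G.g21 * (α₁ + α₂) := by
    linear_combination e1
  unfold lead
  rw [e4, e3]
  ring

theorem disc_natDegree {α : N} (h : G.lead α ≠ 0) : (G.disc α).natDegree = 4 := by
  have e : G.disc α = C (G.lead α) * X ^ 4 +
      C (2 * (3 * G.g30 * α + G.g21) * (2 * G.g20 * α + G.g11) -
        4 * ((3 * G.g30 * α ^ 2 + 2 * G.g21 * α + G.g12) * G.g20 +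
          (G.g20 * α ^ 2 + G.g11 * α + G.g02) * G.g30)) * X ^ 3 +
      C ((2 * G.g20 * α + G.g11) ^ 2 + 2 * (3 * G.g30 * α + G.g21) * (G.g10 * α + G.g01) -
        4 * ((3 * G.g30 * α ^ 2 + 2 * G.g21 * α + G.g12) * G.g10 +
          (G.g20 * α ^ 2 + G.g11 * α + G.g02) * G.g20)) * X ^ 2 +
      C (2 * (2 * G.g20 * α + G.g11) * (G.g10 * α + G.g01) -
        4 * ((3 * G.g30 * α ^ 2 + 2 * G.g21 * α + G.g12) * G.g00 +
          (G.g20 * α ^ 2 + G.g11 * α + G.g02) * G.g10)) * X +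
      C ((G.g10 * α + G.g01) ^ 2 - 4 * (G.g20 * α ^ 2 + G.g11 * α + G.g02) * G.g00) := by
    unfold disc lead p2 p3 p4
    simp only [map_add, map_sub, map_mul, map_pow, map_ofNat]
    ring
  rw [e]
  compute_degree!

end field

end Cub

/-- the value of an affine linear function -/
def lin {R : Type*} [CommRing R] (j0 j1 j2 p y : R) : R := j0 + j1 * p + j2 * y

section main

variable {N : Type*} [Field N] [CharZero N] [DecidableEq N] (G : Cub N) (j0 j1 j2 : N)

/-- the value of the square root of `G` on `c` at the intersection with the line `s` -/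
def qs (α₁ α₂ p s g x : N) : N := s * ((p - x) / (α₂ - α₁)) + g

/-- the derivative of `G` along the second direction at the intersection -/
def b3 (α₁ α₂ p x : N) : N := G.a3 α₂ x + 2 * G.a2 α₂ x * ((p - x) / (α₂ - α₁))

/-- `qs` as a polynomial -/
noncomputable def qpol (α₁ α₂ p s g : N) : N[X] :=
  C (-s / (α₂ - α₁)) * X + C (s * (p / (α₂ - α₁)) + g)

noncomputable def ypol (α₁ α₂ p : N) : N[X] := C (-1 / (α₂ - α₁)) * X + C (p / (α₂ - α₁))

theorem eval_qpol (α₁ α₂ p s g x : N) : (qpol α₁ α₂ p s g).eval x = qs α₁ α₂ p s g x := by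
  simp [qpol, qs]
  ring

theorem eval_ypol (α₁ α₂ p x : N) : (ypol α₁ α₂ p).eval x = (p - x) / (α₂ - α₁) := by
  simp [ypol]
  ring

theorem disc_eq {α₁ α₂ p s g : N} (hα : α₁ ≠ α₂) (n1 : G.a1 α₁ = 0) (n2 : G.a1 α₂ = 0)
    (h2 : G.a2 α₁ p = s ^ 2) (h3 : G.a3 α₁ p = 2 * s * g) (h4 : G.a4 p = g ^ 2) (x : N) :
    G.a2 α₂ x * ((p - x) / (α₂ - α₁)) ^ 2 + G.a3 α₂ x * ((p - x) / (α₂ - α₁)) + G.a4 x =
      qs α₁ α₂ p s g x ^ 2 := by
  have hd : α₂ - α₁ ≠ 0 := sub_ne_zero.2 hα.symm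
  have e1 := G.ev_line α₂ x ((p - x) / (α₂ - α₁))
  have e2 := G.ev_line α₁ p ((p - x) / (α₂ - α₁))
  have e3 : α₂ * ((p - x) / (α₂ - α₁)) + x = α₁ * ((p - x) / (α₂ - α₁)) + p := by
    field_simp
    ring
  rw [n2, e3] at e1
  rw [n1, h2, h3, h4] at e2
  unfold qs
  linear_combination e2 - e1

/-- **The four-root identity.** -/
theorem four_sum {α₁ α₂ p s g : N} (hα : α₁ ≠ α₂) (n1 : G.a1 α₁ = 0) (n2 : G.a1 α₂ = 0)
    (h2 : G.a2 α₁ p = s ^ 2) (h3 : G.a3 α₁ p = 2 * s * g) (h4 : G.a4 p = g ^ 2) (hs : s ≠ 0)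
    (hD : (G.disc α₂).Splits) (hdeg : (G.disc α₂).natDegree = 4) (hnd : (G.disc α₂).roots.Nodup)
    (h20 : ∀ x ∈ (G.disc α₂).roots, G.a2 α₂ x ≠ 0)
    (hq0 : ∀ x ∈ (G.disc α₂).roots, qs α₁ α₂ p s g x ≠ 0) :
    ∑ x ∈ (G.disc α₂).roots.toFinset,
      (b3 G α₁ α₂ p x / (2 * qs α₁ α₂ p s g x)) *
        lin j0 j1 j2 (α₂ * (-G.a3 α₂ x / (2 * G.a2 α₂ x)) + x) (-G.a3 α₂ x / (2 * G.a2 α₂ x)) /
        (derivative (G.disc α₂)).eval x =
    -(2 * (s * lin j0 j1 j2 (α₁ * (-g / s) + p) (-g / s) / (derivative (G.disc α₁)).eval p)) := by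
  have hd : α₂ - α₁ ≠ 0 := sub_ne_zero.2 hα.symm
  set Y := ypol α₁ α₂ p with hY
  set q := qpol α₁ α₂ p s g with hq
  set A3 := G.p3 α₂ + 2 * G.p2 α₂ * Y with hA3
  set k0 : N[X] := C j0 + C j1 * (C α₂ * Y + X) + C j2 * Y with hk0
  set k1 : N[X] := C (j1 * α₂ + j2) with hk1
  have e0 : G.disc α₂ = A3 ^ 2 - 4 * G.p2 α₂ * q ^ 2 := by
    apply Polynomial.funext
    intro x
    have e1 := disc_eq G hα n1 n2 h2 h3 h4 x
    simp only [hA3, eval_sub, eval_add, eval_mul, eval_pow, eval_ofNat, Cub.eval_disc,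
      Cub.eval_p2, Cub.eval_p3, hY, hq, eval_ypol, eval_qpol]
    linear_combination (-4 * G.a2 α₂ x) * e1
  have hA3e : ∀ x, A3.eval x = b3 G α₁ α₂ p x := by
    intro x
    simp only [hA3, eval_add, eval_mul, eval_ofNat, Cub.eval_p2, Cub.eval_p3, hY, eval_ypol, b3]
  have hqe : ∀ x, q.eval x = qs α₁ α₂ p s g x := fun x => eval_qpol α₁ α₂ p s g x
  have hc : -s / (α₂ - α₁) ≠ 0 := div_ne_zero (neg_ne_zero.2 hs) hd
  obtain ⟨τ, hτ⟩ : ∃ τ, τ = p + g * (α₂ - α₁) / s := ⟨_, rfl⟩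
  have hqX : q = C (-s / (α₂ - α₁)) * (X - C τ) := by
    have e5 : s * (p / (α₂ - α₁)) + g = -(-s / (α₂ - α₁) * τ) := by
      rw [hτ]
      field_simp
    rw [hq, qpol, mul_sub, ← C_mul, e5, C_neg, ← sub_eq_add_neg]
  have hq0' : q ≠ 0 := by
    rw [hqX]
    exact mul_ne_zero (C_ne_zero.2 hc) (X_sub_C_ne_zero τ)
  have hqr : q.roots = {τ} := by rw [hqX, roots_C_mul _ hc, roots_X_sub_C]
  have hqd : q.natDegree = 1 := by
    rw [hqX, natDegree_C_mul hc, natDegree_X_sub_C]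
  have hqs : q.Splits := by
    rw [hqX]
    exact (Splits.C _).mul (Splits.X_sub_C _)
  have hτ0 : qs α₁ α₂ p s g τ = 0 := by
    rw [← hqe, hqX]
    simp
  have hD0 : G.disc α₂ ≠ 0 := by
    intro h0
    rw [h0] at hdeg
    simp at hdeg
  have hτr : τ ∉ (G.disc α₂).roots := fun h => hq0 τ h hτ0
  have hy0 : (p - τ) / (α₂ - α₁) = -g / s := by
    rw [hτ]
    field_simp
    ring
  have hb : b3 G α₁ α₂ p τ ≠ 0 := by
    intro h0
    apply hτr
    rw [mem_roots hD0, IsRoot.def, e0]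
    simp only [eval_sub, eval_pow, eval_mul, hA3e, hqe, hτ0, h0]
    ring
  have hdeg' : (1 * (A3 * k0 - 2 * k1 * q ^ 2)).natDegree + 2 ≤
      q.natDegree + (A3 ^ 2 - 4 * G.p2 α₂ * q ^ 2).natDegree := by
    rw [← e0, hqd, hdeg, one_mul]
    have hYd : Y.natDegree ≤ 1 := by
      rw [hY, ypol]
      compute_degree
    have h2d : (G.p2 α₂).natDegree ≤ 1 := by
      rw [Cub.p2]
      compute_degree
    have h3d : (G.p3 α₂).natDegree ≤ 2 := by
      rw [Cub.p3]
      compute_degree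
    have hAd : A3.natDegree ≤ 2 := by
      rw [hA3]
      refine (natDegree_add_le _ _).trans (max_le h3d ?_)
      refine natDegree_mul_le.trans ?_
      have : (2 * G.p2 α₂).natDegree ≤ 1 := by
        refine natDegree_mul_le.trans ?_
        rw [natDegree_ofNat]
        omega
      omega
    have hk0d : k0.natDegree ≤ 1 := by
      rw [hk0]
      refine (natDegree_add_le _ _).trans (max_le ?_ ?_)
      · refine (natDegree_add_le _ _).trans (max_le (by simp) ?_)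
        refine (natDegree_C_mul_le _ _).trans ?_
        refine (natDegree_add_le _ _).trans (max_le ?_ natDegree_X_le)
        exact (natDegree_C_mul_le _ _).trans hYd
      · exact (natDegree_C_mul_le _ _).trans hYd
    have h1 : (A3 * k0).natDegree ≤ 3 := natDegree_mul_le.trans (by omega)
    have h2 : (2 * k1 * q ^ 2).natDegree ≤ 3 := by
      refine natDegree_mul_le.trans ?_
      have e1 : (2 * k1).natDegree ≤ 0 := by
        refine natDegree_mul_le.trans ?_
        rw [natDegree_ofNat, hk1, natDegree_C]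
      have e2 : (q ^ 2).natDegree ≤ 2 := natDegree_pow_le.trans (by omega)
      omega
    have h3 := (natDegree_sub_le (A3 * k0) (2 * k1 * q ^ 2)).trans (max_le h1 h2)
    omega
  have key := sum_disc (A2 := G.p2 α₂) (A3 := A3) (q := q) (k0 := k0) (k1 := k1) (M := 1)
    hqs (by rw [← e0]; exact hD) (by
      rw [← e0, hqr, Multiset.singleton_add]
      exact Multiset.nodup_cons.2 ⟨hτr, hnd⟩) hq0' (by rw [← e0]; exact hD0) hdeg'
  rw [← e0, hqr, Multiset.toFinset_singleton, Finset.sum_singleton] at key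
  have hz := G.der_line α₂ τ (-g / s)
  have hz1 := G.der_line α₁ p (-g / s)
  have hpt : α₂ * (-g / s) + τ = α₁ * (-g / s) + p := by
    rw [hτ]
    field_simp
    ring
  rw [n2, hpt] at hz
  rw [n1, h2, h3] at hz1
  have hbz : b3 G α₁ α₂ p τ = (α₂ - α₁) * G.dp (α₁ * (-g / s) + p) (-g / s) := by
    unfold b3
    rw [hy0]
    have h5 : (2 : N) * s ^ 2 * (-g / s) + 2 * s * g = 0 := by
      field_simp
      ring
    linear_combination hz - hz1 + h5
  have hdp : G.dp (α₁ * (-g / s) + p) (-g / s) ≠ 0 := by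
    intro h0
    apply hb
    rw [hbz, h0, mul_zero]
  have hk0τ : k0.eval τ = lin j0 j1 j2 (α₁ * (-g / s) + p) (-g / s) := by
    simp only [hk0, eval_add, eval_mul, eval_C, eval_X, hY, eval_ypol, hy0, hpt, lin]
  have hqd' : (derivative q).eval τ = -s / (α₂ - α₁) := by
    rw [hqX, derivative_C_mul]
    simp
  rw [Cub.deriv_disc G h2 h3 h4 hs]
  have key2 : ∑ x ∈ (G.disc α₂).roots.toFinset,
      (b3 G α₁ α₂ p x / (2 * qs α₁ α₂ p s g x)) *
        lin j0 j1 j2 (α₂ * (-G.a3 α₂ x / (2 * G.a2 α₂ x)) + x) (-G.a3 α₂ x / (2 * G.a2 α₂ x)) /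
        (derivative (G.disc α₂)).eval x =
      (1 / 2) * ∑ x ∈ (G.disc α₂).roots.toFinset,
        (1 * (A3 * k0 - 2 * k1 * q ^ 2)).eval x /
          (q.eval x * (derivative (G.disc α₂)).eval x) := by
    rw [Finset.mul_sum]
    refine Finset.sum_congr rfl fun x hx => ?_
    have hx' := Multiset.mem_toFinset.1 hx
    have hq1 := hq0 x hx'
    have ha2 := h20 x hx'
    have hr : b3 G α₁ α₂ p x ^ 2 = 4 * G.a2 α₂ x * qs α₁ α₂ p s g x ^ 2 := by
      have h6 : (G.disc α₂).eval x = 0 := (mem_roots'.1 hx').2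
      rw [e0] at h6
      simp only [eval_sub, eval_pow, eval_mul, hA3e, hqe, eval_ofNat, Cub.eval_p2] at h6
      linear_combination h6
    have hk0x : k0.eval x = lin j0 j1 j2 (α₂ * ((p - x) / (α₂ - α₁)) + x)
        ((p - x) / (α₂ - α₁)) := by
      simp only [hk0, eval_add, eval_mul, eval_C, eval_X, hY, eval_ypol, lin]
    have h7 : b3 G α₁ α₂ p x / (2 * qs α₁ α₂ p s g x) *
        lin j0 j1 j2 (α₂ * (-G.a3 α₂ x / (2 * G.a2 α₂ x)) + x)
          (-G.a3 α₂ x / (2 * G.a2 α₂ x)) =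
        1 / 2 * ((b3 G α₁ α₂ p x * k0.eval x - 2 * (j1 * α₂ + j2) * qs α₁ α₂ p s g x ^ 2) /
          qs α₁ α₂ p s g x) := by
      have h8 : -G.a3 α₂ x / (2 * G.a2 α₂ x) =
          (p - x) / (α₂ - α₁) - b3 G α₁ α₂ p x / (2 * G.a2 α₂ x) := by
        unfold b3
        field_simp
        ring
      have h9 : b3 G α₁ α₂ p x * (b3 G α₁ α₂ p x / (2 * G.a2 α₂ x)) =
          2 * qs α₁ α₂ p s g x ^ 2 := by
        rw [← mul_div_assoc, ← pow_two, hr]
        field_simp
        ring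
      rw [h8, hk0x]
      generalize b3 G α₁ α₂ p x / (2 * G.a2 α₂ x) = z at h9 ⊢
      generalize (p - x) / (α₂ - α₁) = y at *
      unfold lin
      field_simp
      linear_combination (-(j1 * α₂ + j2)) * h9
    rw [h7, one_mul, eval_sub, eval_mul, eval_mul, eval_mul, eval_pow, eval_ofNat, hA3e, hqe, hk1,
      eval_C, mul_div_assoc, div_div]
  rw [key2, key, hqd', hk0τ, hA3e, hbz, eval_one]
  field_simp
  ring

/-- The square root does not vanish at the four roots if the line is a simple tangent. -/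
theorem qs_ne {α₁ α₂ p s g : N} (hα : α₁ ≠ α₂) (n1 : G.a1 α₁ = 0) (n2 : G.a1 α₂ = 0)
    (h2 : G.a2 α₁ p = s ^ 2) (h3 : G.a3 α₁ p = 2 * s * g) (h4 : G.a4 p = g ^ 2) (hs : s ≠ 0)
    (hd1 : (derivative (G.disc α₁)).eval p ≠ 0) {x : N} (hx : (G.disc α₂).eval x = 0) :
    qs α₁ α₂ p s g x ≠ 0 := by
  intro h0
  have hd : α₂ - α₁ ≠ 0 := sub_ne_zero.2 hα.symm
  have e1 := disc_eq G hα n1 n2 h2 h3 h4 x
  rw [Cub.eval_disc] at hx
  have hb : b3 G α₁ α₂ p x = 0 := by
    have : b3 G α₁ α₂ p x ^ 2 = 0 := by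
      unfold b3
      rw [h0] at e1
      linear_combination hx + 4 * G.a2 α₂ x * e1
    exact pow_eq_zero_iff (two_ne_zero) |>.1 this
  have hy : (p - x) / (α₂ - α₁) = -g / s := by
    unfold qs at h0
    rw [eq_div_iff hs]
    linear_combination h0
  have hpt : α₂ * (-g / s) + x = α₁ * (-g / s) + p := by
    have h5 : p - x = -g / s * (α₂ - α₁) := (div_eq_iff hd).1 hy
    linear_combination -h5
  have hz := G.der_line α₂ x (-g / s)
  have hz1 := G.der_line α₁ p (-g / s)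
  rw [n2, hpt] at hz
  rw [n1, h2, h3] at hz1
  unfold b3 at hb
  rw [hy] at hb
  have h5 : (2 : N) * s ^ 2 * (-g / s) + 2 * s * g = 0 := by
    field_simp
    ring
  have hdp : G.dp (α₁ * (-g / s) + p) (-g / s) = 0 := by
    apply mul_left_cancel₀ hd
    linear_combination hb + hz1 - h5 - hz
  apply hd1
  rw [Cub.deriv_disc G h2 h3 h4 hs, hdp]
  ring

end main

end Vale.Agent.P297.H65
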