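import Vale.Agent.P297.H55.Z2.Nrm

/-!
The general numerical Godeaux surface with torsion of order two: a point of `T_l` whose image on the
surface is generic is a good point.
-/

namespace Vale.Agent.P297.H65

open Vale.Agent.P297 Vale.Agent.P297.Gen Vale.Agent.P297.H72 Vale.Agent.P297.Z2
open Vale.Agent.P297.H160.Z2Irr

/-- **Good points** : it is enough that the image is a generic point of the surface. -/
theorem good_of_gen {N : Type} [Field N] [Algebra ℂ N] {P : Par} {l p r y S : N}
    (h : GenS P (toS P l p r y S)) : H55Z.Good P l p r y S := by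
  have hx : (dat P y).X l p r S ≠ 0 := h.nx
  have hU : fU P y ≠ 0 := h.nU
  have hV : fV P y ≠ 0 := h.nV
  refine ⟨hU, hV, ?_, ?_, ?_, h⟩
  · intro h0
    apply hx
    unfold Dat.X
    rw [h0]
    simp
  · intro h0
    apply hx
    unfold Dat.X
    rw [h0]
    simp
  · intro h0
    apply hx
    unfold Dat.X
    rw [h0]
    simp

theorem good_iff {N : Type} [Field N] [Algebra ℂ N] {P : Par} {l p r y S : N} :
    H55Z.Good P l p r y S ↔ GenS P (toS P l p r y S) :=
  ⟨fun h => h.gen, good_of_gen⟩

end Vale.Agent.P297.H65
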