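import Vale.Agent.P297.H65.Z2.Four
import Vale.Agent.P297.H940.Z2.Inst

/-!
The branch quartic of `T_l` on the planes `p + r + (1 - l) y = W`, which contain the line of the
three nodes at infinity: a plane cubic.
-/

set_option linter.unusedSimpArgs false
set_option linter.unusedSectionVars false

namespace Vale.Agent.P297.H65

open Polynomial Finset Vale.Agent.P297.Z2 Vale.Agent.P297.H160.Z2Irr

section raw

variable {R : Type*} [CommRing R]

/-- The plane cubic in terms of the letters (`e = 1 - l`, the quadric `j0 + j1 p + j2 y`). -/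
def rawCub (l W e A B u v j0 j1 j2 : R) : Cub R where
  g30 := 4 * j1 - 4 * l * (v - u)
  g21 := 4 * (j2 + e * j1) + 4 * l * (-(B + (W - u * e + A)) - e * (v - u) + e * (-v - u))
  g12 := 4 * e * j2 + 4 * l * (-(W * e) - e * (B + (W - u * e + A)) +
    e * (-(v * e) - B + (W - u * e + A)))
  g03 := -(4 * l * e * (e * B))
  g20 := j1 ^ 2 - 4 * (W * j1 - j0) +
    4 * l * (W * (v - u) - (B * u + (u * W + A * v)) - e * (v * u))
  g11 := 2 * j1 * j2 - 4 * (W * j2 - e * j0) + 4 * l * (W * (B + (W - u * e + A)) -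
    e * (B * u + (u * W + A * v)) + e * (-(B * u) + v * (W - u * e + A) - B * u + (u * W + A * v)))
  g02 := j2 ^ 2 + 4 * l * (A * B * e + e * (-(B * u * e) + B * (W - u * e + A)))
  g10 := 2 * j0 * j1 - 4 * (-(A * B * j1) + W * j0) + 4 * l * (-(A * B * (v - u)) +
    W * (B * u + (u * W + A * v)) + e * (-(B * u * u) + v * (u * W + A * v)))
  g01 := 2 * j0 * j2 + 4 * (A * B) * j2 + 4 * l * (-(A * B * (B + (W - u * e + A))) +
    e * (B * u * (W - u * e + A) + B * (u * W + A * v)))
  g00 := j0 ^ 2 + 4 * (A * B) * j0 + 4 * l * (-(A * B * (B * u + (u * W + A * v))) +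
    e * (B * u * (u * W + A * v)))

/-- The branch quartic in terms of the quadric. -/
theorem ev_rawCub (l W e A B u v j0 j1 j2 p y : R) :
    (rawCub l W e A B u v j0 j1 j2).ev p y =
      (j0 + j1 * p + j2 * y) ^ 2 - 4 * (p * (W - e * y - p) - A * B) * (j0 + j1 * p + j2 * y) +
      4 * l * ((p * (W - e * y - p) - A * B) *
        (((y + v) * p + B * (y + u)) + ((y + u) * (W - e * y - p) + A * (y + v))) +
        e * ((y + v) * p + B * (y + u)) * ((y + u) * (W - e * y - p) + A * (y + v))) := by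
  unfold Cub.ev rawCub
  ring

end raw

section ring

variable {R : Type*} [CommRing R] [Algebra ℂ R] (P : Par)

/-- the quadric through the nine nodes on the plane `W` -/
def jc0 (l W : R) : R := W ^ 2 + algebraMap ℂ R P.Q1 * W - algebraMap ℂ R P.m -
  l * (algebraMap ℂ R P.v * W - algebraMap ℂ R P.n)

def jc1 (l : R) : R := algebraMap ℂ R P.Q0 - algebraMap ℂ R P.Q1 -
  l * (algebraMap ℂ R P.u - algebraMap ℂ R P.v)

def jc2 (l W : R) : R :=
  l * W - (1 - l) * algebraMap ℂ R P.Q1 - algebraMap ℂ R P.M1 + l * (1 - l) * algebraMap ℂ R P.v +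
    l * algebraMap ℂ R P.P1

/-- the quadric through the nine nodes -/
def tJ (l p r y : R) : R := (dat P y).J0 p r - l * (dat P y).J1 p r

theorem tJ_plane (l W p y : R) : tJ P l p (W - (1 - l) * y - p) y =
    lin (jc0 P l W) (jc1 P l) (jc2 P l W) p y := by
  unfold tJ lin jc0 jc1 jc2 Dat.J0 Dat.J1 dat fU fV fa fc fe fm
  ring

/-- The restriction of the branch quartic to the plane `W`. -/
def planeCub (l W : R) : Cub R :=
  rawCub l W (1 - l) (algebraMap ℂ R P.P0) (algebraMap ℂ R P.P2) (algebraMap ℂ R P.u)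
    (algebraMap ℂ R P.v) (jc0 P l W) (jc1 P l) (jc2 P l W)

theorem ev_planeCub (l W p y : R) : (planeCub P l W).ev p y =
    tB P l p (W - (1 - l) * y - p) y := by
  have h := tJ_plane P l W p y
  unfold lin at h
  rw [planeCub, ev_rawCub, ← h]
  unfold tJ tB Dat.Bq Dat.K
  generalize (dat P y).J0 p (W - (1 - l) * y - p) = J0
  generalize (dat P y).J1 p (W - (1 - l) * y - p) = J1
  unfold Dat.N Dat.E Dat.F dat fU fV
  ring

/-- **At a node** the cubic has no term of degree three in the direction of the node. -/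
theorem planeCub_a1 (hM : P.M1 = 0) {l W al be : R} (hd : be - al = 1 - l)
    (hn : al * be * (algebraMap ℂ R P.Q0 * al - algebraMap ℂ R P.Q1 * be) =
      l * (algebraMap ℂ R P.P0 * al ^ 2 - algebraMap ℂ R P.P1 * (al * be) +
        algebraMap ℂ R P.P2 * be ^ 2)) : (planeCub P l W).a1 al = 0 := by
  obtain rfl : be = al + 1 - l := by linear_combination hd
  unfold Cub.a1 planeCub rawCub jc1 jc2
  dsimp only
  rw [hM, map_zero]
  linear_combination 4 * hn

theorem planeCub_g30 (l W : R) : (planeCub P l W).g30 =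
    4 * (algebraMap ℂ R P.Q0 - algebraMap ℂ R P.Q1) := by
  unfold planeCub rawCub jc1
  ring

end ring

section node

variable {N : Type} [Field N] [Algebra ℂ N] [CharZero N] {P : Par} {l al be : N}

theorem node_a1 (hM : P.M1 = 0) (h : IsNode P l al be) (W : N) : (planeCub P l W).a1 al = 0 :=
  planeCub_a1 P hM h.sub h.cub

/-- the branch quartic on the lines through the node, in the plane -/
theorem plane_line (h : IsNode P l al be) (p r y : N) :
    (planeCub P l (p + r)).ev (al * y + p) y = tB P l (al * y + p) (-be * y + r) y := by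
  rw [ev_planeCub]
  congr 1
  linear_combination y * h.sub

theorem plane_coef (hM : P.M1 = 0) (h : IsNode P l al be) (p r : N) :
    (planeCub P l (p + r)).a2 al p = (ntd P l al be).B2 p r ∧
      al * be * (planeCub P l (p + r)).a3 al p = (ntd P l al be).b1 p r ∧
      (al * be) ^ 2 * (planeCub P l (p + r)).a4 p = (ntd P l al be).b0 p r := by
  have hab : al * be ≠ 0 := mul_ne_zero h.al0 h.be0
  have key : ∀ y : N, (al * be) ^ 2 * ((planeCub P l (p + r)).a2 al p * y ^ 2 +
      (planeCub P l (p + r)).a3 al p * y + (planeCub P l (p + r)).a4 p) =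
      (al * be) ^ 2 * (ntd P l al be).B2 p r * y ^ 2 + al * be * (ntd P l al be).b1 p r * y +
        (ntd P l al be).b0 p r := by
    intro y
    rw [← h.tB_line hM p r y, ← plane_line h p r y, Cub.ev_line, node_a1 hM h]
    ring
  have k0 := key 0
  have k1 := key 1
  have k2 := key (-1)
  refine ⟨?_, ?_, ?_⟩
  · apply mul_left_cancel₀ (pow_ne_zero 2 hab)
    linear_combination k1 / 2 + k2 / 2 - k0
  · apply mul_left_cancel₀ hab
    linear_combination k1 / 2 - k2 / 2
  · linear_combination k0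

theorem disc_iff (hM : P.M1 = 0) (h : IsNode P l al be) (p r : N) :
    ((planeCub P l (p + r)).disc al).eval p = 0 ↔
      (ntd P l al be).b1 p r ^ 2 = 4 * (ntd P l al be).B2 p r * (ntd P l al be).b0 p r := by
  obtain ⟨h2, h3, h4⟩ := plane_coef hM h p r
  have hab : (al * be) ^ 2 ≠ 0 := pow_ne_zero 2 (mul_ne_zero h.al0 h.be0)
  rw [Cub.eval_disc, ← h2, ← h3, ← h4, ← sub_eq_zero (a := (al * be * _) ^ 2),
    ← mul_right_inj' (a := (al * be) ^ 2) hab, mul_zero]
  constructor <;> intro h5 <;> linear_combination h5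

/-- the tangency point -/
noncomputable def yt (P : Par) (l al p r : N) : N :=
  -(planeCub P l (p + r)).a3 al p / (2 * (planeCub P l (p + r)).a2 al p)

/-- **The value of the differential**: `s J(tangency point) / T'`. -/
noncomputable def fv (P : Par) (l al be p r s : N) : N :=
  s * tJ P l (al * yt P l al p r + p) (-be * yt P l al p r + r) (yt P l al p r) /
    (derivative ((planeCub P l (p + r)).disc al)).eval p

theorem tJ_lin (h : IsNode P l al be) (p r y : N) :
    tJ P l (al * y + p) (-be * y + r) y =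
      lin (jc0 P l (p + r)) (jc1 P l) (jc2 P l (p + r)) (al * y + p) y := by
  rw [← tJ_plane]
  congr 1
  linear_combination (-y) * h.sub

variable {p r s s' : N}

theorem NLine_cub (hM : P.M1 = 0) (L : NLine P l al be p r s s') :
    (planeCub P l (p + r)).a2 al p = s ^ 2 ∧ (planeCub P l (p + r)).a3 al p = 2 * s * s' ∧
      (planeCub P l (p + r)).a4 p = s' ^ 2 := by
  obtain ⟨h2, h3, h4⟩ := plane_coef hM L.node p r
  obtain ⟨f2, f3, f4⟩ := L.facts hM
  have hab : al * be ≠ 0 := mul_ne_zero L.node.al0 L.node.be0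
  refine ⟨by rw [h2, f2], ?_, ?_⟩
  · apply mul_left_cancel₀ hab
    rw [h3, ← f3]
    ring
  · apply mul_left_cancel₀ (pow_ne_zero 2 hab)
    rw [h4, ← f4]
    ring

variable {al₂ be₂ al₃ be₃ : N}

theorem lead_ne (hM : P.M1 = 0) (hQ : P.Q0 ≠ P.Q1) (n₁ : IsNode P l al be)
    (n₂ : IsNode P l al₂ be₂) (n₃ : IsNode P l al₃ be₃) (h12 : al ≠ al₂) (h13 : al ≠ al₃)
    (h23 : al₂ ≠ al₃) (W : N) : (planeCub P l W).lead al₂ ≠ 0 := by
  rw [Cub.lead_eq _ h12 h13 h23 (node_a1 hM n₁ W) (node_a1 hM n₂ W) (node_a1 hM n₃ W),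
    planeCub_g30]
  refine pow_ne_zero 2 (mul_ne_zero (mul_ne_zero (by norm_num) ?_) (sub_ne_zero.2 h13))
  rw [← map_sub]
  exact (_root_.map_ne_zero _).2 (sub_ne_zero.2 hQ)

/-- the slope of the component over the line `x` through the second node that meets the line
`(p, r)` through the first one -/
noncomputable def sx (P : Par) (l al al₂ p r s s' x : N) : N :=
  b3 (planeCub P l (p + r)) al al₂ p x / (2 * qs al al₂ p s s' x)

/-- **The four-root identity for the lines of `T_l`.** -/
theorem four_lines [IsAlgClosed N] [DecidableEq N] (hM : P.M1 = 0) (hQ : P.Q0 ≠ P.Q1)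
    (L : NLine P l al be p r s s') (n₂ : IsNode P l al₂ be₂) (n₃ : IsNode P l al₃ be₃)
    (h12 : al ≠ al₂) (h13 : al ≠ al₃) (h23 : al₂ ≠ al₃) (hs : s ≠ 0)
    (hd1 : (derivative ((planeCub P l (p + r)).disc al)).eval p ≠ 0)
    (hnd : ((planeCub P l (p + r)).disc al₂).roots.Nodup)
    (h20 : ∀ x ∈ ((planeCub P l (p + r)).disc al₂).roots,
      (ntd P l al₂ be₂).B2 x (p + r - x) ≠ 0) :
    ∑ x ∈ ((planeCub P l (p + r)).disc al₂).roots.toFinset,
      fv P l al₂ be₂ x (p + r - x) (sx P l al al₂ p r s s' x) = -(2 * fv P l al be p r s) := by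
  obtain ⟨c2, c3, c4⟩ := NLine_cub hM L
  have a1 := node_a1 hM L.node (p + r)
  have a2 := node_a1 hM n₂ (p + r)
  have hlead := lead_ne hM hQ L.node n₂ n₃ h12 h13 h23 (p + r)
  have hdeg := Cub.disc_natDegree _ hlead
  have hW : ∀ x, x + (p + r - x) = p + r := fun x => by ring
  have h20' : ∀ x ∈ ((planeCub P l (p + r)).disc al₂).roots,
      (planeCub P l (p + r)).a2 al₂ x ≠ 0 := by
    intro x hx
    have h5 := (plane_coef hM n₂ x (p + r - x)).1
    rw [hW] at h5
    rw [h5]
    exact h20 x hx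
  have hq : ∀ x ∈ ((planeCub P l (p + r)).disc al₂).roots, qs al al₂ p s s' x ≠ 0 :=
    fun x hx => qs_ne _ h12 a1 a2 c2 c3 c4 hs hd1 (mem_roots'.1 hx).2
  have key := four_sum (planeCub P l (p + r)) (jc0 P l (p + r)) (jc1 P l) (jc2 P l (p + r)) h12
    a1 a2 c2 c3 c4 hs (IsAlgClosed.splits _) hdeg hnd h20' hq
  have e1 : fv P l al be p r s = s * lin (jc0 P l (p + r)) (jc1 P l) (jc2 P l (p + r))
      (al * (-s' / s) + p) (-s' / s) / (derivative ((planeCub P l (p + r)).disc al)).eval p := by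
    have e2 : yt P l al p r = -s' / s := by
      unfold yt
      rw [c2, c3]
      field_simp
    unfold fv
    rw [tJ_lin L.node, e2]
  rw [e1, ← key]
  refine Finset.sum_congr rfl fun x hx => ?_
  unfold fv
  rw [tJ_lin n₂]
  unfold yt sx
  rw [hW]

end node

end Vale.Agent.P297.H65
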