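import Mathlib

/-!
Sums of residues (Lagrange interpolation) and the four-root identity of the planes through the
line at infinity.
-/

namespace Vale.Agent.P297.H65

open Polynomial Finset

variable {N : Type*} [Field N]

/-- `∑ F (v i) / T'(v i) = 0` if `T = ∏ (X - v i)` and `deg F + 2 ≤ deg T`. -/
theorem sum_res {ι : Type*} [DecidableEq ι] (s : Finset ι) (v : ι → N)
    (hv : Set.InjOn v s) (F : N[X]) (hF : F.natDegree + 2 ≤ #s) :
    ∑ i ∈ s, F.eval (v i) / (derivative (Lagrange.nodal s v)).eval (v i) = 0 := by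
  have h1 : F.degree < #s := by
    refine degree_le_natDegree.trans_lt ?_
    exact_mod_cast (by omega : F.natDegree < #s)
  have h2 : F.coeff (#s - 1) = 0 := coeff_eq_zero_of_natDegree_lt (by omega)
  rw [← h2, Lagrange.coeff_eq_sum hv h1]
  refine Finset.sum_congr rfl fun i hi => ?_
  rw [Lagrange.eval_nodal_derivative_eval_node_eq hi, Lagrange.eval_nodal]

/-- The sum of the residues of `F / T` at the (simple) roots of `T`. -/
theorem sum_res_roots [DecidableEq N] {T F : N[X]} (hT : T.Splits) (hs : T.roots.Nodup)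
    (hF : F.natDegree + 2 ≤ T.natDegree) :
    ∑ x ∈ T.roots.toFinset, F.eval x / (derivative T).eval x = 0 := by
  have hc : #T.roots.toFinset = T.natDegree := by
    rw [Multiset.toFinset_card_of_nodup hs, hT.natDegree_eq_card_roots]
  have h1 : T = C T.leadingCoeff * Lagrange.nodal T.roots.toFinset id := by
    conv_lhs => rw [hT.eq_prod_roots]
    rw [Lagrange.nodal_eq]
    congr 1
    rw [Finset.prod, Multiset.toFinset_val, hs.dedup]
    rfl
  have h2 := sum_res T.roots.toFinset id Function.injective_id.injOn F (by rw [hc]; exact hF)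
  have h3 : ∑ x ∈ T.roots.toFinset, F.eval x / (derivative T).eval x =
      T.leadingCoeff⁻¹ * ∑ x ∈ T.roots.toFinset,
        F.eval (id x) / (derivative (Lagrange.nodal T.roots.toFinset id)).eval (id x) := by
    rw [Finset.mul_sum]
    refine Finset.sum_congr rfl fun x hx => ?_
    have h4 : (derivative T).eval x = T.leadingCoeff *
        (derivative (Lagrange.nodal T.roots.toFinset id)).eval x := by
      conv_lhs => rw [h1]
      rw [derivative_C_mul, eval_mul, eval_C]
    rw [h4, id, div_mul_eq_div_div_swap]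
    ring
  rw [h3, h2, mul_zero]

/-- Residues for a product `q * D` of coprime polynomials. -/
theorem sum_res_mul [DecidableEq N] {q D F : N[X]} (hq : q.Splits) (hD : D.Splits)
    (hs : (q.roots + D.roots).Nodup) (hq0 : q ≠ 0) (hD0 : D ≠ 0)
    (hF : F.natDegree + 2 ≤ q.natDegree + D.natDegree) :
    ∑ x ∈ D.roots.toFinset, F.eval x / (q.eval x * (derivative D).eval x) =
      - ∑ x ∈ q.roots.toFinset, F.eval x / ((derivative q).eval x * D.eval x) := by
  have h0 : q * D ≠ 0 := mul_ne_zero hq0 hD0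
  have h1 : (q * D).roots = q.roots + D.roots := roots_mul h0
  have h2 := sum_res_roots (F := F) (hq.mul hD) (by rw [h1]; exact hs)
    (by rw [natDegree_mul hq0 hD0]; exact hF)
  have hdis : Disjoint q.roots.toFinset D.roots.toFinset := by
    rw [Multiset.disjoint_toFinset]
    exact (Multiset.nodup_add.1 hs).2.2
  rw [h1, Multiset.toFinset_add, Finset.sum_union hdis] at h2
  rw [eq_neg_iff_add_eq_zero, ← h2, add_comm]
  congr 1
  · refine Finset.sum_congr rfl fun x hx => ?_
    have hx' : q.eval x = 0 := (mem_roots'.1 (Multiset.mem_toFinset.1 hx)).2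
    rw [derivative_mul, eval_add, eval_mul, eval_mul, hx', zero_mul, add_zero]
  · refine Finset.sum_congr rfl fun x hx => ?_
    have hx' : D.eval x = 0 := (mem_roots'.1 (Multiset.mem_toFinset.1 hx)).2
    rw [derivative_mul, eval_add, eval_mul, eval_mul, hx', mul_zero, zero_add]

/-- The sum over the roots of the discriminant `A3² - 4 A2 q²` of the conic bundle in a plane:
`∑ (A3 k0 - 2 k1 q²) M / (q D') = - ∑_{q = 0} M k0 / (q' A3)`. -/
theorem sum_disc [DecidableEq N] {A2 A3 q k0 k1 M : N[X]}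
    (hq : q.Splits) (hD : (A3 ^ 2 - 4 * A2 * q ^ 2).Splits)
    (hs : (q.roots + (A3 ^ 2 - 4 * A2 * q ^ 2).roots).Nodup) (hq0 : q ≠ 0)
    (hD0 : A3 ^ 2 - 4 * A2 * q ^ 2 ≠ 0)
    (hF : (M * (A3 * k0 - 2 * k1 * q ^ 2)).natDegree + 2 ≤
      q.natDegree + (A3 ^ 2 - 4 * A2 * q ^ 2).natDegree) :
    ∑ x ∈ (A3 ^ 2 - 4 * A2 * q ^ 2).roots.toFinset,
        (M * (A3 * k0 - 2 * k1 * q ^ 2)).eval x /
          (q.eval x * (derivative (A3 ^ 2 - 4 * A2 * q ^ 2)).eval x) =
      - ∑ x ∈ q.roots.toFinset, M.eval x * k0.eval x / ((derivative q).eval x * A3.eval x) := by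
  rw [sum_res_mul hq hD hs hq0 hD0 hF]
  congr 1
  refine Finset.sum_congr rfl fun x hx => ?_
  have hx' : q.eval x = 0 := (mem_roots'.1 (Multiset.mem_toFinset.1 hx)).2
  have hA : A3.eval x ≠ 0 := by
    intro h0
    have h1 : x ∈ (A3 ^ 2 - 4 * A2 * q ^ 2).roots := by
      rw [mem_roots hD0, IsRoot.def]
      simp [hx', h0]
    exact (Multiset.disjoint_left.1 (Multiset.nodup_add.1 hs).2.2 (Multiset.mem_toFinset.1 hx)) h1
  have h5 : (M * (A3 * k0 - 2 * k1 * q ^ 2)).eval x = M.eval x * k0.eval x * A3.eval x := by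
    simp only [eval_mul, eval_sub, eval_pow, eval_ofNat, hx']
    ring
  have h6 : (derivative q).eval x * (A3 ^ 2 - 4 * A2 * q ^ 2).eval x =
      (derivative q).eval x * A3.eval x * A3.eval x := by
    simp only [eval_mul, eval_sub, eval_pow, eval_ofNat, hx']
    ring
  rw [h5, h6, mul_div_mul_right _ _ hA]

end Vale.Agent.P297.H65
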