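import Vale.Agent.P297.H65.Z2.PlaneMap

/-!
The value of the quadric of the nine nodes at the tangency point; simple roots.
-/

set_option linter.unusedSimpArgs false
set_option linter.unusedSectionVars false
set_option linter.unusedVariables false

namespace Vale.Agent.P297.H65

open Polynomial Finset Vale.Agent.P297.Z2 Vale.Agent.P297.H160.Z2Irr Vale.Agent.P297.Gen

section td

variable {k : Type} [Field k] {d : TD k} {p r X S a b G : k}

theorem H_eq (h : d.Pt p r X S a b G) (he : d.e = d.be - d.al) :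
    2 * d.B2 p r * d.jn p r - d.l * ((p - d.pn) + (r - d.rn)) * d.b1 p r =
      4 * d.ka p r * (2 * d.q2 X + d.l * d.Lf X a b) := by
  have hG := h.ka_mul he
  have hX := h.X_eq he
  have hW := h.hW
  have hp := h.hp
  have hr := h.hr
  have hW' : d.W p r = d.ka p r + d.l * d.e * (p - d.pn) * (r - d.rn) := by
    unfold TD.ka
    ring
  have ha : a = (p - d.pn) + d.l * G := by rw [hp]; ring
  have hb : b = (r - d.rn) - d.l * G := by rw [hr]; ring
  have hM : d.M0 p r = (p - d.pn) * (r - d.rn) * (d.be * p + d.al * r) -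
      d.be * d.A * (p - d.pn) ^ 2 - d.al * d.C * (r - d.rn) ^ 2 := rfl
  unfold TD.B2 TD.b1 TD.jn TD.g2 TD.g3
  rw [hW'] at hW ⊢
  unfold TD.Lf TD.t0 at *
  rw [ha, hb] at hW ⊢
  generalize d.ka p r = κ at *
  generalize d.M0 p r = M at *
  generalize hπ : p - d.pn = π at *
  generalize hρ : r - d.rn = ρ at *
  generalize d.q2 X = q at *
  subst hX
  linear_combination (8 * κ) * hW + (4 * d.l * (d.l * d.e) * (π - ρ)) * hG +
    (4 * d.l * (d.l * d.e) * (π - ρ)) * hM

end td

section node

variable {N : Type} [Field N] [Algebra ℂ N] [CharZero N] {P : Par} {l al be p r s s' : N}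

/-- the quadric of the nine nodes on a line through a node -/
theorem tJ_line (hM : P.M1 = 0) (h : IsNode P l al be) (p r y : N) :
    al * be * tJ P l (al * y + p) (-be * y + r) y =
      al * be * l * ((p - (ntd P l al be).pn) + (r - (ntd P l al be).rn)) * y +
        (ntd P l al be).jn p r := by
  have h1 := h.rl.J p r y
  change al * be * (((al * y + p) + (-(be * y) + r)) ^ 2 + (2 * y + _) * (al * y + p) +
      (2 * y + _) * (-(be * y) + r) - (_ - y ^ 2) -
      l * ((y + _) * (al * y + p) + (y + _) * (-(be * y) + r) - (_ - y ^ 2 + _ * y))) =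
    al * be * l * ((p - (ntd P l al be).pn) + (r - (ntd P l al be).rn)) * y +
      (ntd P l al be).jn p r at h1
  rw [← h1]
  unfold tJ Dat.J0 Dat.J1 dat fU fV fa fc fe fm
  dsimp only
  rw [hM, map_zero]
  ring

/-- **The value at the tangency point.** -/
theorem sJ_eq (hM : P.M1 = 0) (h : IsNode P l al be)
    (hd : (ntd P l al be).b1 p r ^ 2 = 4 * (ntd P l al be).B2 p r * (ntd P l al be).b0 p r)
    (hs : s ^ 2 = (ntd P l al be).B2 p r) (hs0 : s ≠ 0) (hk : (ntd P l al be).ka p r ≠ 0)
    (he : be - al ≠ 0) :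
    al * be * (s * tJ P l (al * yt P l al p r + p) (-be * yt P l al p r + r) (yt P l al p r)) =
      2 * (ntd P l al be).ka p r * (ntd P l al be).wf p r s := by
  have hab : al * be ≠ 0 := mul_ne_zero h.al0 h.be0
  have he1 : (ntd P l al be).e = (ntd P l al be).be - (ntd P l al be).al := rfl
  have h0 := TD.pt_f (d := ntd P l al be) he1 hk hd
  have h1 := H_eq h0 he1
  have h2 := TD.Lf_e he1 h0
  have h3 := tJ_line hM h p r (yt P l al p r)
  obtain ⟨c2, c3, c4⟩ := plane_coef hM h p r
  have hB : (ntd P l al be).B2 p r ≠ 0 := by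
    rw [← hs]
    exact pow_ne_zero 2 hs0
  have e1 : al * be * yt P l al p r = -(ntd P l al be).b1 p r / (2 * (ntd P l al be).B2 p r) := by
    unfold yt
    rw [c2, ← c3]
    field_simp
  have e2 : (ntd P l al be).wf p r s = (2 * (ntd P l al be).q2 ((ntd P l al be).Xf p r) +
      l * (ntd P l al be).Lf ((ntd P l al be).Xf p r)
      (p - (ntd P l al be).pn + (ntd P l al be).l * (ntd P l al be).Gf p r)
      (r - (ntd P l al be).rn - (ntd P l al be).l * (ntd P l al be).Gf p r)) / s := by
    unfold TD.wf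
    rw [← h2]
    change _ / ((be - al) * s) = _
    rw [div_eq_div_iff (mul_ne_zero he hs0) hs0]
    change (2 * (be - al) * _ + l * ((be - al) * _)) * s = _
    ring
  rw [e2, mul_div_assoc', eq_div_iff hs0]
  change 2 * _ * _ - l * _ * _ = 4 * _ * (2 * _ + l * _) at h1
  have h4 : al * be * (s * tJ P l (al * yt P l al p r + p) (-be * yt P l al p r + r)
      (yt P l al p r)) * s = (ntd P l al be).B2 p r *
        (al * be * tJ P l (al * yt P l al p r + p) (-be * yt P l al p r + r) (yt P l al p r)) := by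
    rw [← hs]
    ring
  rw [h4, h3]
  have h5 : al * be * l * ((p - (ntd P l al be).pn) + (r - (ntd P l al be).rn)) *
      yt P l al p r = l * ((p - (ntd P l al be).pn) + (r - (ntd P l al be).rn)) *
        (-(ntd P l al be).b1 p r / (2 * (ntd P l al be).B2 p r)) := by
    rw [← e1]
    ring
  rw [h5]
  field_simp
  linear_combination h1

/-- **Simple roots.** -/
theorem deriv_ne (hM : P.M1 = 0) (hF : FStmt P N) (h : IsNode P l al be) (he : be - al ≠ 0)
    (hd : (ntd P l al be).b1 p r ^ 2 = 4 * (ntd P l al be).B2 p r * (ntd P l al be).b0 p r)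
    (hs : s ^ 2 = (ntd P l al be).B2 p r) (hs0 : s ≠ 0) (hk : (ntd P l al be).ka p r ≠ 0)
    (hq : (ntd P l al be).q2 ((ntd P l al be).Xf p r) ≠ 0)
    (hv : (ntd P l al be).vf p r s ≠ 0) (D : Derivation ℤ N N)
    (hDC : ∀ z : ℂ, D (algebraMap ℂ N z) = 0) (hDl : D l = 0) (hD1 : D al = 0)
    (hDW : D (p + r) ≠ 0) :
    (derivative ((planeCub P l (p + r)).disc al)).eval p ≠ 0 := by
  intro h0
  have h1 := hF l al be p r s D h hDC hDl hD1 hd hs hs0 hk hq
  rw [h0, mul_zero] at h1
  have hw := TD.wf_ne (d := ntd P l al be) rfl he hk hd hs hs0 hq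
  have h2 := sJ_eq hM h hd hs hs0 hk he
  have h3 : s * tJ P l (al * yt P l al p r + p) (-be * yt P l al p r + r)
      (yt P l al p r) ≠ 0 := by
    intro h4
    rw [h4, mul_zero] at h2
    exact mul_ne_zero (mul_ne_zero two_ne_zero hk) hw h2.symm
  have hab : al * be ≠ 0 := mul_ne_zero h.al0 h.be0
  have h5 := neg_eq_zero.1 h1.symm
  exact mul_ne_zero (mul_ne_zero (mul_ne_zero (by norm_num) h3) (div_ne_zero hv hab)) hDW h5

end node

end Vale.Agent.P297.H65
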